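import Vale.Agent.P099.H819.Main

open MeasureTheory

namespace Vale.Agent.Results.P099.AllTriangles

open Vale.Agent.P099

/-- (1) Irrational triangles: existence, uniqueness, ergodicity and weak mixing of the billiard flow.
(2) For EVERY triangle: existence and uniqueness; ergodic iff weakly mixing iff irrational; the
functions invariant under the product with any measure preserving flow; products with ergodic
flows; no eigenvalue except zero.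
(3) Several particles with arbitrary speeds in several triangles. -/
theorem result :
    (∀ T : Triangle, T.IsIrrational →
      (∃ Ψ : ℝ → ℂ × ℂ → ℂ × ℂ, T.IsBilliardFlow Ψ ∧ (∀ t, MeasurePreserving (Ψ t) T.mu T.mu) ∧
        ∀ Φ : ℝ → ℂ × ℂ → ℂ × ℂ, T.IsBilliardFlow Φ → ∀ t, ∀ᵐ p ∂T.mu, Φ t p = Ψ t p) ∧
      ∀ Φ : ℝ → ℂ × ℂ → ℂ × ℂ, T.IsBilliardFlow Φ →
        FlowErgodic T.mu Φ ∧ FlowWeakMixing T.mu Φ) ∧
    (∀ T : Triangle,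
      (∃ Ψ : ℝ → ℂ × ℂ → ℂ × ℂ, T.IsBilliardFlow Ψ ∧ MPFlow T.mu Ψ ∧
        ∀ Φ : ℝ → ℂ × ℂ → ℂ × ℂ, T.IsBilliardFlow Φ → ∀ t, ∀ᵐ p ∂T.mu, Φ t p = Ψ t p) ∧
      ∀ Φ : ℝ → ℂ × ℂ → ℂ × ℂ, T.IsBilliardFlow Φ →
        (FlowErgodic T.mu Φ ↔ T.IsIrrational) ∧
        (FlowWeakMixing T.mu Φ ↔ T.IsIrrational) ∧
        (∀ (Ω : Type) [MeasurableSpace Ω] (m : Measure Ω) [IsProbabilityMeasure m]
          (Ψ : ℝ → Ω → Ω), MPFlow m Ψ →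
          (∀ f : (ℂ × ℂ) × Ω → ℝ, Measurable f →
            ((∀ t, ∀ᵐ z ∂(T.mu.prod m), f (Φ t z.1, Ψ t z.2) = f z) ↔
              ∃ g : ℂ × Ω → ℝ, Measurable g ∧
                (∀ i, ∀ᵐ w ∂(nu.prod m), g (T.refl i w.1, w.2) = g w) ∧
                (∀ t, ∀ᵐ w ∂(nu.prod m), g (w.1, Ψ t w.2) = g w) ∧
                ∀ᵐ z ∂(T.mu.prod m), f z = g (z.1.2, z.2))) ∧
          (T.IsIrrational → FlowErgodic m Ψ →
            FlowErgodic (T.mu.prod m) (fun t z => (Φ t z.1, Ψ t z.2)))) ∧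
        ∀ lam : ℝ, lam ≠ 0 → ∀ f : ℂ × ℂ → ℂ, Measurable f →
          (∀ t : ℝ, ∀ᵐ p ∂T.mu, f (Φ t p) = Complex.exp ((lam * t : ℝ) * Complex.I) * f p) →
          ∀ᵐ p ∂T.mu, f p = 0) ∧
    ∀ (n : ℕ) (T : Fin n → Triangle) (Φ : Fin n → ℝ → ℂ × ℂ → ℂ × ℂ) (c : Fin n → ℝ),
      (∀ i, (T i).IsBilliardFlow (Φ i)) → (∀ i, c i ≠ 0) →
      (FlowErgodic (Measure.pi fun i => (T i).mu) (fun t p i => Φ i (c i * t) (p i)) ↔
        ∀ i, (T i).IsIrrational) ∧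
      (FlowWeakMixing (Measure.pi fun i => (T i).mu) (fun t p i => Φ i (c i * t) (p i)) ↔
        ∀ i, (T i).IsIrrational) := by
  refine ⟨fun T hT => ?_, fun T => ?_, fun n T Φ c hΦ hc => particles n T Φ hΦ c hc⟩
  · obtain ⟨Ψ, hΨ, hb, hu⟩ := T.exists_good_flow
    refine ⟨⟨Ψ, hb, hΨ.mp, hu⟩, fun Φ hΦ => ⟨T.ergodic_flow hT hΦ, ?_⟩⟩
    exact T.weakMixing_of_good hT hΦ hΨ (hu Φ hΦ)
  · obtain ⟨Ψ, hΨ, hb, hu⟩ := T.exists_good_flow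
    refine ⟨⟨Ψ, hb, hΨ.mpflow, hu⟩, fun Φ hΦ => ⟨T.ergodic_iff hΦ, T.weakMixing_iff hΦ, ?_, ?_⟩⟩
    · intro Ω _ m _ Ψ' hΨ'
      exact ⟨fun f hf => T.invariant_iff hΦ Ω m Ψ' hΨ' f hf,
        fun hT hE => T.prod_ergodic hT hΨ'.pflow hE hΦ⟩
    · intro lam hlam f hf hinv
      exact T.no_eigenvalue hΦ hlam hf hinv

end Vale.Agent.Results.P099.AllTriangles
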