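import Vale.Agent.P099.Bdl.B1
import Vale.Agent.P099.H504.Main
open MeasureTheory

namespace Vale.Agent.Results.P099.ConvexPolygons

open Vale.Agent.P099 Vale.Agent.P099C

/-- (1) For every irrational triangle the billiard flow exists, is unique up to null sets,
preserves the normalized Liouville measure, is ergodic and is weakly mixing.
(2) For every convex polygon, with any number of sides, the billiard flow exists, is unique up to
null sets and preserves the normalized Liouville measure, and it is ergodic if and only if the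
polygon is irrational if and only if it is weakly mixing.
(3) For every irrational convex polygon and every measure preserving flow `Ψ` of a probability
space, the sets invariant under the product flow are those of the form `univ × B` up to null sets,
with `B` invariant under `Ψ`. -/
theorem result :
    (∀ T : Triangle, T.IsIrrational →
      (∃ Ψ : ℝ → ℂ × ℂ → ℂ × ℂ, T.IsBilliardFlow Ψ ∧ (∀ t, MeasurePreserving (Ψ t) T.mu T.mu) ∧
        ∀ Φ : ℝ → ℂ × ℂ → ℂ × ℂ, T.IsBilliardFlow Φ → ∀ t, ∀ᵐ p ∂T.mu, Φ t p = Ψ t p) ∧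
      ∀ Φ : ℝ → ℂ × ℂ → ℂ × ℂ, T.IsBilliardFlow Φ →
        FlowErgodic T.mu Φ ∧ FlowWeakMixing T.mu Φ) ∧
    (∀ (N : ℕ) [NeZero N] (T : ConvexPolygon N),
      (∃ Ψ : ℝ → ℂ × ℂ → ℂ × ℂ, T.IsBilliardFlow Ψ ∧ (∀ t, MeasurePreserving (Ψ t) T.mu T.mu) ∧
        ∀ Φ : ℝ → ℂ × ℂ → ℂ × ℂ, T.IsBilliardFlow Φ → ∀ t, ∀ᵐ p ∂T.mu, Φ t p = Ψ t p) ∧
      ∀ Φ : ℝ → ℂ × ℂ → ℂ × ℂ, T.IsBilliardFlow Φ →
        (FlowErgodic T.mu Φ ↔ T.IsIrrational) ∧ (FlowWeakMixing T.mu Φ ↔ T.IsIrrational)) ∧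
    (∀ (N : ℕ) [NeZero N] (T : ConvexPolygon N), T.IsIrrational →
      ∀ Φ : ℝ → ℂ × ℂ → ℂ × ℂ, T.IsBilliardFlow Φ →
      ∀ (Ω : Type) [MeasurableSpace Ω] (m : Measure Ω) [IsProbabilityMeasure m] (Ψ : ℝ → Ω → Ω),
        (Measurable fun z : ℝ × Ω => Ψ z.1 z.2) → (∀ t, MeasurePreserving (Ψ t) m m) →
        (∀ s t, ∀ᵐ q ∂m, Ψ (s + t) q = Ψ s (Ψ t q)) → (∀ᵐ q ∂m, Ψ 0 q = q) →
        ∀ A : Set ((ℂ × ℂ) × Ω), MeasurableSet A →
          (∀ t, (T.mu.prod m) (symmDiff ((fun z => (Φ t z.1, Ψ t z.2)) ⁻¹' A) A) = 0) →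
          ∃ B : Set Ω, MeasurableSet B ∧ (∀ t, m (symmDiff (Ψ t ⁻¹' B) B) = 0) ∧
            (T.mu.prod m) (symmDiff A (Set.univ ×ˢ B)) = 0) := by
  refine ⟨fun T hT => ?_, fun N _ T => convex_main N T,
    fun N _ T hT Φ hΦ Ω _ m _ Ψ h1 h2 h3 h4 A hA hinv =>
      convex_relative N T hT Φ hΦ Ω m Ψ h1 h2 h3 h4 A hA hinv⟩
  obtain ⟨Ψ, hΨ, hb, hu⟩ := Triangle.exists_good_flow T
  refine ⟨⟨Ψ, hb, hΨ.mp, hu⟩, fun Φ hΦ => ⟨T.ergodic_flow hT hΦ, ?_⟩⟩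
  exact T.weakMixing_of_good hT hΦ hΨ (hu Φ hΦ)

end Vale.Agent.Results.P099.ConvexPolygons
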