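import Vale.Agent.P099.H184.PT.Maps

open MeasureTheory

namespace Vale.Agent.Results.P099.PolygonalTables

open Vale.Agent.P099 Vale.Agent.P099T

/-- (1) Irrational triangles: existence, uniqueness, ergodicity and weak mixing of the billiard flow.
(2) EVERY polygonal table, that is, every bounded domain whose boundary is a finite union of
segments: existence and uniqueness of the billiard flow; it is ergodic if and only if it is weakly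
mixing if and only if the table is irrational.
(3) Irrational tables: the sets invariant under the product with any measure preserving flow.
(4) Irrational tables, every time `t ≠ 0`: the time `t` map is ergodic and weakly mixing, mean
mixing, and almost every discrete orbit visits every open set.
(5) Several particles with arbitrary speeds in several tables. -/
theorem result :
    (∀ T : Triangle, T.IsIrrational →
      (∃ Ψ : ℝ → ℂ × ℂ → ℂ × ℂ, T.IsBilliardFlow Ψ ∧ (∀ t, MeasurePreserving (Ψ t) T.mu T.mu) ∧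
        ∀ Φ : ℝ → ℂ × ℂ → ℂ × ℂ, T.IsBilliardFlow Φ → ∀ t, ∀ᵐ p ∂T.mu, Φ t p = Ψ t p) ∧
      ∀ Φ : ℝ → ℂ × ℂ → ℂ × ℂ, T.IsBilliardFlow Φ →
        FlowErgodic T.mu Φ ∧ FlowWeakMixing T.mu Φ) ∧
    (∀ (N : ℕ) (T : PolygonalTable N),
      (∃ Ψ : ℝ → ℂ × ℂ → ℂ × ℂ, T.IsBilliardFlow Ψ ∧ (∀ t, MeasurePreserving (Ψ t) T.mu T.mu) ∧
        ∀ Φ : ℝ → ℂ × ℂ → ℂ × ℂ, T.IsBilliardFlow Φ → ∀ t, ∀ᵐ p ∂T.mu, Φ t p = Ψ t p) ∧
      ∀ Φ : ℝ → ℂ × ℂ → ℂ × ℂ, T.IsBilliardFlow Φ →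
        (FlowErgodic T.mu Φ ↔ T.IsIrrational) ∧ (FlowWeakMixing T.mu Φ ↔ T.IsIrrational)) ∧
    (∀ (N : ℕ) (T : PolygonalTable N), T.IsIrrational →
      ∀ Φ : ℝ → ℂ × ℂ → ℂ × ℂ, T.IsBilliardFlow Φ →
      ∀ (Ω : Type) [MeasurableSpace Ω] (m : Measure Ω) [IsProbabilityMeasure m] (Ψ : ℝ → Ω → Ω),
        (Measurable fun z : ℝ × Ω => Ψ z.1 z.2) → (∀ t, MeasurePreserving (Ψ t) m m) →
        (∀ s t, ∀ᵐ q ∂m, Ψ (s + t) q = Ψ s (Ψ t q)) → (∀ᵐ q ∂m, Ψ 0 q = q) →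
        ∀ A : Set ((ℂ × ℂ) × Ω), MeasurableSet A →
          (∀ t, (T.mu.prod m) (symmDiff ((fun z => (Φ t z.1, Ψ t z.2)) ⁻¹' A) A) = 0) →
          ∃ B : Set Ω, MeasurableSet B ∧ (∀ t, m (symmDiff (Ψ t ⁻¹' B) B) = 0) ∧
            (T.mu.prod m) (symmDiff A (Set.univ ×ˢ B)) = 0) ∧
    (∀ (N : ℕ) (T : PolygonalTable N), T.IsIrrational →
      ∀ Φ : ℝ → ℂ × ℂ → ℂ × ℂ, T.IsBilliardFlow Φ → ∀ t : ℝ, t ≠ 0 →
        (∀ A : Set (ℂ × ℂ), MeasurableSet A → T.mu (symmDiff (Φ t ⁻¹' A) A) = 0 →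
          T.mu A = 0 ∨ T.mu A = 1) ∧
        (∀ A : Set ((ℂ × ℂ) × (ℂ × ℂ)), MeasurableSet A →
          (T.mu.prod T.mu) (symmDiff ((fun z => (Φ t z.1, Φ t z.2)) ⁻¹' A) A) = 0 →
          (T.mu.prod T.mu) A = 0 ∨ (T.mu.prod T.mu) A = 1) ∧
        (∀ A B : Set (ℂ × ℂ), MeasurableSet A → MeasurableSet B →
          Filter.Tendsto (fun n : ℕ => (n : ℝ)⁻¹ * ∑ k ∈ Finset.range n,
            |T.mu.real (Φ (k * t) ⁻¹' A ∩ B) - T.mu.real A * T.mu.real B|)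
            Filter.atTop (nhds 0)) ∧
        ∀ᵐ p ∂T.mu, ∀ U : Set (ℂ × ℂ), IsOpen U → T.mu U ≠ 0 → ∃ n : ℕ, Φ (n * t) p ∈ U) ∧
    ∀ (n : ℕ) (N : Fin n → ℕ) (T : ∀ i, PolygonalTable (N i))
      (Φ : Fin n → ℝ → ℂ × ℂ → ℂ × ℂ) (c : Fin n → ℝ),
      (∀ i, (T i).IsBilliardFlow (Φ i)) → (∀ i, c i ≠ 0) →
      (FlowErgodic (Measure.pi fun i => (T i).mu) (fun t p i => Φ i (c i * t) (p i)) ↔
        ∀ i, (T i).IsIrrational) ∧
      (FlowWeakMixing (Measure.pi fun i => (T i).mu) (fun t p i => Φ i (c i * t) (p i)) ↔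
        ∀ i, (T i).IsIrrational) := by
  refine ⟨fun T hT => ?_, fun N T => table_main T,
    fun N T hT Φ hΦ Ω _ m _ Ψ h1 h2 h3 h4 A hA hinv =>
      table_relative T hT Φ hΦ Ω m Ψ h1 h2 h3 h4 A hA hinv,
    fun N T hT Φ hΦ t ht => table_maps T hT hΦ ht,
    fun n N T Φ c hΦ hc => table_particles n N T Φ hΦ c hc⟩
  obtain ⟨Ψ, hΨ, hb, hu⟩ := T.exists_good_flow
  refine ⟨⟨Ψ, hb, hΨ.mp, hu⟩, fun Φ hΦ => ⟨T.ergodic_flow hT hΦ, ?_⟩⟩
  exact T.weakMixing_of_good hT hΦ hΨ (hu Φ hΦ)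

end Vale.Agent.Results.P099.PolygonalTables
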