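import Vale.Agent.P099.H172.TwJ

open MeasureTheory Set ProbabilityTheory

namespace Vale.Agent.Results.P099.TiledSurfaces

open Vale.Agent.P099

/-- (1) Irrational triangles: the billiard flow exists, is unique, measurable, measure preserving,
ergodic and weakly mixing.
(2) Every finite connected surface (or table) tiled by mirror copies of a triangle `T`, glued along
`G : Gluing S` (one copy: `T` itself; two copies: the doubled triangle, a flat sphere with three cone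
points, or a kite; all finite reflection covers of `T`): its flow exists and is unique; it is ergodic
iff it is weakly mixing iff `T` is irrational. For every `T`, rational or not, the functions
invariant under its product with any measure preserving flow are exactly the invariant functions of
direction, copy and second factor; products with ergodic flows are ergodic if `T` is irrational;
there is no eigenvalue except zero. -/
theorem result :
    (∀ T : Triangle, T.IsIrrational →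
      (∃ Ψ : ℝ → ℂ × ℂ → ℂ × ℂ, T.IsBilliardFlow Ψ ∧
        Measurable (fun z : ℝ × (ℂ × ℂ) => Ψ z.1 z.2) ∧
        (∀ t, MeasurePreserving (Ψ t) T.mu T.mu) ∧
        ∀ Φ : ℝ → ℂ × ℂ → ℂ × ℂ, T.IsBilliardFlow Φ → ∀ t, ∀ᵐ p ∂T.mu, Φ t p = Ψ t p) ∧
      ∀ Φ : ℝ → ℂ × ℂ → ℂ × ℂ, T.IsBilliardFlow Φ →
        FlowErgodic T.mu Φ ∧ FlowWeakMixing T.mu Φ) ∧
    ∀ (T : Triangle) (S : Type) [Finite S] [Nonempty S] [MeasurableSpace S]
      [DiscreteMeasurableSpace S] (G : Gluing S),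
      (∃ Ψ : ℝ → (ℂ × ℂ) × S → (ℂ × ℂ) × S, T.IsTiledFlow G Ψ ∧ MPFlow (T.tiledMu S) Ψ ∧
        ∀ Φ : ℝ → (ℂ × ℂ) × S → (ℂ × ℂ) × S, T.IsTiledFlow G Φ →
          ∀ t, ∀ᵐ p ∂T.tiledMu S, Φ t p = Ψ t p) ∧
      ∀ Φ : ℝ → (ℂ × ℂ) × S → (ℂ × ℂ) × S, T.IsTiledFlow G Φ →
        (FlowErgodic (T.tiledMu S) Φ ↔ T.IsIrrational) ∧
        (FlowWeakMixing (T.tiledMu S) Φ ↔ T.IsIrrational) ∧
        (∀ (Ω : Type) [MeasurableSpace Ω] (m : Measure Ω) [IsProbabilityMeasure m]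
          (Ψ : ℝ → Ω → Ω), MPFlow m Ψ →
          (∀ f : ((ℂ × ℂ) × S) × Ω → ℝ, Measurable f →
            ((∀ t, ∀ᵐ z ∂((T.tiledMu S).prod m), f (Φ t z.1, Ψ t z.2) = f z) ↔
              ∃ g : (ℂ × S) × Ω → ℝ, Measurable g ∧
                (∀ i, ∀ᵐ w ∂((nu.prod (uniformOn univ)).prod m),
                  g ((T.refl i w.1.1, G.σ i w.1.2), w.2) = g w) ∧
                (∀ t, ∀ᵐ w ∂((nu.prod (uniformOn univ)).prod m), g (w.1, Ψ t w.2) = g w) ∧
                ∀ᵐ z ∂((T.tiledMu S).prod m), f z = g ((z.1.1.2, z.1.2), z.2))) ∧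
          (T.IsIrrational → FlowErgodic m Ψ →
            FlowErgodic ((T.tiledMu S).prod m) (fun t z => (Φ t z.1, Ψ t z.2)))) ∧
        ∀ lam : ℝ, lam ≠ 0 → ∀ f : (ℂ × ℂ) × S → ℂ, Measurable f →
          (∀ t : ℝ, ∀ᵐ p ∂T.tiledMu S,
            f (Φ t p) = Complex.exp ((lam * t : ℝ) * Complex.I) * f p) →
          ∀ᵐ p ∂T.tiledMu S, f p = 0 := by
  refine ⟨fun T hT => ?_, fun T S _ _ _ _ G => ?_⟩
  · obtain ⟨Ψ, hΨ, hb, hu⟩ := T.exists_good_flow
    refine ⟨⟨Ψ, hb, hΨ.meas, hΨ.mp, hu⟩, fun Φ hΦ => ⟨T.ergodic_flow hT hΦ, ?_⟩⟩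
    exact T.weakMixing_of_good hT hΦ hΨ (hu Φ hΦ)
  · obtain ⟨Ψ, hΨ, hb, hu, -⟩ := T.exists_good_flowT G
    refine ⟨⟨Ψ, hb, hΨ.mpflow, hu⟩, fun Φ hΦ => ⟨T.ergodic_iffT hΦ, T.weakMixing_iffT hΦ, ?_, ?_⟩⟩
    · intro Ω _ m _ Ψ' hΨ'
      refine ⟨fun f hf => ⟨fun h => T.invariant_ofT hΨ'.pflow hΦ hf h, ?_⟩,
        fun hT hE => T.prod_ergodicT hT hΨ'.pflow hE hΦ⟩
      rintro ⟨g, -, h1, h2, h3⟩ t
      exact T.invariant_convT hΨ'.pflow hΦ h1 h2 h3 t
    · intro lam hlam f hf hinv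
      exact T.no_eigenvalueT hΦ hlam hf hinv

end Vale.Agent.Results.P099.TiledSurfaces
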